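import Mathlib

/-!
# P110: partial colouring by the entropy method, and the full colouring it gives

`m` test rows with entries bounded by one, `n ≤ m` variables: some signing has all row sums at
most `20 √(n log (200 m / n))`.
-/

open Finset Real

namespace Vale.Agent.P110.UF.Round

variable {ι : Type*} [DecidableEq ι]

/-- The sign attached to a set of positive variables. -/
def sgn (T : Finset ι) (k : ι) : ℝ := if k ∈ T then 1 else -1

/-- A signed row sum. -/
def rowSum (a : ι → ℝ) (U T : Finset ι) : ℝ := ∑ k ∈ U, a k * sgn T k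

lemma moment (a : ι → ℝ) (U : Finset ι) (t : ℝ) (ha : ∀ k, |a k| ≤ 1) :
    ∑ T ∈ U.powerset, exp (t * rowSum a U T) ≤ 2 ^ U.card * exp (t ^ 2 / 2 * U.card) := by
  have e : ∀ T ∈ U.powerset, exp (t * rowSum a U T)
      = (∏ k ∈ T, exp (t * a k)) * ∏ k ∈ U \ T, exp (-(t * a k)) := by
    intro T hT
    rw [← exp_sum, ← exp_sum, ← exp_add, rowSum, mul_sum,
      ← sum_sdiff (mem_powerset.1 hT), add_comm]
    congr 1; congr 1
    · exact sum_congr rfl fun k hk => by simp [sgn, hk]
    · exact sum_congr rfl fun k hk => by simp [sgn, (mem_sdiff.1 hk).2]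
  rw [sum_congr rfl e, ← prod_add]
  have h : ∀ k ∈ U, exp (t * a k) + exp (-(t * a k)) ≤ 2 * exp (t ^ 2 / 2) := by
    intro k _
    have h1 := cosh_le_exp_half_sq (t * a k)
    rw [cosh_eq] at h1
    have h2 : exp ((t * a k) ^ 2 / 2) ≤ exp (t ^ 2 / 2) := by
      refine exp_le_exp.2 ?_
      rw [mul_pow]
      have := mul_le_of_le_one_right (sq_nonneg t) (show (a k) ^ 2 ≤ 1 by
        nlinarith [abs_le.1 (ha k)])
      linarith
    linarith
  refine (prod_le_prod (fun k _ => by positivity) h).trans (le_of_eq ?_)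
  rw [prod_const, mul_pow, ← exp_nat_mul]
  ring_nf

lemma sum_Icc_pow (θ : ℝ) (hθ : 0 ≤ θ) (hθ1 : θ < 1) (R : ℕ) :
    ∑ k ∈ Icc (-(R : ℤ)) R, θ ^ k.natAbs ≤ (1 + θ) / (1 - θ) := by
  have key : ∀ R : ℕ, (∑ k ∈ Icc (-(R : ℤ)) R, θ ^ k.natAbs) + 2 * θ ^ (R + 1) / (1 - θ)
      = (1 + θ) / (1 - θ) := by
    intro R
    induction R with
    | zero => have : (1:ℝ) - θ ≠ 0 := by linarith
              simp; field_simp; ring
    | succ R ih =>
      have hI : Icc (-((R + 1 : ℕ) : ℤ)) ((R + 1 : ℕ) : ℤ)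
          = insert (-((R + 1 : ℕ) : ℤ)) (insert ((R + 1 : ℕ) : ℤ) (Icc (-(R : ℤ)) R)) := by
        ext k; simp only [mem_Icc, mem_insert]; omega
      rw [hI, sum_insert (by simp; omega), sum_insert (by simp), Int.natAbs_neg, Int.natAbs_natCast,
        ← ih]
      have : (1:ℝ) - θ ≠ 0 := by linarith
      field_simp
      ring
  have := key R
  have h2 : 0 ≤ 2 * θ ^ (R + 1) / (1 - θ) := div_nonneg (by positivity) (by linarith)
  linarith

lemma sum_profiles {m : ℕ} (θ : ℝ) (hθ : 0 ≤ θ) (hθ1 : θ ≤ 1 / 3) (B : Finset (Fin m → ℤ)) :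
    ∑ b ∈ B, θ ^ (∑ i, (b i).natAbs) ≤ exp (3 * θ * m) := by
  set R := ∑ b ∈ B, ∑ i, (b i).natAbs with hR
  have hsub : B ⊆ Fintype.piFinset fun _ : Fin m => Icc (-(R : ℤ)) R := by
    intro b hb
    refine Fintype.mem_piFinset.2 fun i => ?_
    have h1 : (b i).natAbs ≤ R :=
      (single_le_sum (f := fun i => (b i).natAbs) (fun _ _ => Nat.zero_le _) (mem_univ i)).trans
        (single_le_sum (f := fun b : Fin m → ℤ => ∑ i, (b i).natAbs) (fun _ _ => Nat.zero_le _) hb)
    simp only [mem_Icc]; omega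
  refine (sum_le_sum_of_subset_of_nonneg hsub fun _ _ _ => by positivity).trans ?_
  simp only [← prod_pow_eq_pow_sum]
  rw [← prod_univ_sum (fun _ : Fin m => Icc (-(R : ℤ)) R) (fun _ k => θ ^ k.natAbs)]
  refine (prod_le_prod (g := fun _ => exp (3 * θ)) (fun i _ => sum_nonneg fun k _ => by positivity)
    fun i _ => (sum_Icc_pow θ hθ (by linarith) R).trans ?_).trans (le_of_eq ?_)
  · refine le_trans ?_ (add_one_le_exp _)
    rw [div_le_iff₀ (by linarith)]
    nlinarith
  · rw [prod_const, card_univ, Fintype.card_fin, ← exp_nat_mul]; ring_nf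

lemma card_small_subsets (U : Finset ι) :
    ((U.powerset.filter fun A => 4 * A.card ≤ U.card).card : ℝ)
      ≤ exp (U.card * (log (4 / 3) + log 3 / 4)) := by
  calc ((U.powerset.filter fun A => 4 * A.card ≤ U.card).card : ℝ)
      = ∑ A ∈ U.powerset.filter (fun A => 4 * A.card ≤ U.card), (1 : ℝ) := by simp
    _ ≤ ∑ A ∈ U.powerset.filter (fun A => 4 * A.card ≤ U.card),
          (1 / 3 : ℝ) ^ A.card * exp (U.card * (log 3 / 4)) := by
        refine sum_le_sum fun A hA => ?_
        have hA : (4 * A.card : ℝ) ≤ U.card := by exact_mod_cast (mem_filter.1 hA).2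
        have e : (1 / 3 : ℝ) ^ A.card = exp (A.card * (-log 3)) := by
          rw [exp_nat_mul, exp_neg, exp_log (by norm_num)]; norm_num
        rw [e, ← exp_add]
        refine one_le_exp ?_
        have := log_pos (show (1 : ℝ) < 3 by norm_num)
        nlinarith
    _ ≤ ∑ A ∈ U.powerset, (1 / 3 : ℝ) ^ A.card * exp (U.card * (log 3 / 4)) :=
        sum_le_sum_of_subset_of_nonneg (filter_subset _ _) fun _ _ _ => by positivity
    _ = _ := by
        rw [← sum_mul]
        have := sum_pow_mul_eq_add_pow (1 / 3 : ℝ) 1 U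
        simp only [one_pow, mul_one] at this
        rw [this, mul_add, exp_add, exp_nat_mul, exp_nat_mul, exp_log (by norm_num)]
        norm_num

/-- The logarithmic factor. -/
noncomputable def Lf (m n : ℕ) : ℝ := log (200 * m / n)

lemma one_le_Lf {m n : ℕ} (hn : 0 < n) (hm : n ≤ m) : 1 ≤ Lf m n := by
  have hn' : (0 : ℝ) < n := by exact_mod_cast hn
  have hm' : (n : ℝ) ≤ m := by exact_mod_cast hm
  have hm0 : (0 : ℝ) < m := hn'.trans_le hm'
  rw [Lf, le_log_iff_exp_le (by positivity)]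
  refine le_trans ?_ (show (200 : ℝ) ≤ 200 * m / n by rw [le_div_iff₀ hn']; linarith)
  linarith [exp_one_lt_d9]

theorem partial_colour (U : Finset ι) (m : ℕ) (a : Fin m → ι → ℝ) (ha : ∀ i k, |a i k| ≤ 1)
    (hU : 0 < U.card) (hm : U.card ≤ m) :
    ∃ χ : ι → ℝ, (∀ k, χ k = 0 ∨ χ k = 1 ∨ χ k = -1) ∧
      U.card ≤ 4 * (U.filter fun k => χ k ≠ 0).card ∧
      ∀ i, |∑ k ∈ U, a i k * χ k| ≤ 2 * √(U.card * Lf m U.card) := by
  classical
  set n := U.card with hn
  have hn' : (0 : ℝ) < n := by exact_mod_cast hU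
  have hm' : (n : ℝ) ≤ m := by exact_mod_cast hm
  set L := Lf m n with hL
  have hL1 : 1 ≤ L := one_le_Lf hU hm
  set θ : ℝ := n / (200 * m) with hθ
  have hm0 : (0 : ℝ) < m := hn'.trans_le hm'
  have hθ0 : 0 < θ := by positivity
  have hθ1 : θ ≤ 1 / 200 := by rw [hθ, div_le_iff₀ (by positivity)]; linarith
  have hexpL : exp (-L) = θ := by
    rw [hL, Lf, exp_neg, exp_log (by positivity), hθ, inv_div]
  have hLθ : L ≤ θ⁻¹ := by
    rw [← hexpL, exp_neg, inv_inv]; linarith [add_one_le_exp L]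
  set Δ : ℝ := 4 * √(n * L) with hΔ
  have hΔ0 : 0 < Δ := by positivity
  have hΔ2 : Δ ^ 2 = 16 * (n * L) := by
    rw [hΔ, mul_pow, sq_sqrt (by positivity)]; ring
  set t : ℝ := Δ / (2 * n) with ht
  have htΔ : t * Δ = 8 * L := by
    rw [ht, div_mul_eq_mul_div, ← sq, hΔ2]; field_simp; ring
  have htn : t ^ 2 / 2 * n = 2 * L := by
    rw [ht, div_pow, hΔ2]; field_simp; ring
  set prof : Finset ι → Fin m → ℤ := fun T i => round (rowSum (a i) U T / Δ) with hprof
  -- the mean size of one entry of the profile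
  have hone : ∀ i, ∑ T ∈ U.powerset, ((prof T i).natAbs : ℝ) ≤ 2 * 2 ^ n * θ ^ 2 := by
    intro i
    have hp : ∀ T ∈ U.powerset, ((prof T i).natAbs : ℝ)
        ≤ exp (-(4 * L)) * (exp (t * rowSum (a i) U T) + exp (-t * rowSum (a i) U T)) := by
      intro T _
      set x := rowSum (a i) U T / Δ with hx
      have hS : t * rowSum (a i) U T = 8 * L * x := by rw [hx, ← htΔ]; field_simp
      rw [hprof, Nat.cast_natAbs, Int.cast_abs, neg_mul, hS, mul_add, ← exp_add, ← exp_add]
      simp only [← hx]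
      have hr : |((round x : ℤ) : ℝ)| ≤ |x| + 1 / 2 := by
        have := abs_sub_round x
        have := abs_sub_abs_le_abs_sub ((round x : ℤ) : ℝ) x
        rw [abs_sub_comm] at this
        linarith
      rcases lt_or_ge |x| (1 / 2) with hx2 | hx2
      · have : |((round x : ℤ) : ℝ)| < 1 := by linarith
        rw [← Int.cast_abs] at this ⊢
        have : |round x| < 1 := by exact_mod_cast this
        rw [show |round x| = 0 by have := abs_nonneg (round x); omega]
        simp only [Int.cast_zero]; positivity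
      · refine hr.trans ?_
        rcases abs_choice x with he | he
        · rw [he] at hx2 ⊢
          nlinarith [add_one_le_exp (-(4 * L) + 8 * L * x), exp_pos (-(4 * L) + -(8 * L * x))]
        · rw [he] at hx2 ⊢
          nlinarith [add_one_le_exp (-(4 * L) + -(8 * L * x)), exp_pos (-(4 * L) + 8 * L * x)]
    refine (sum_le_sum hp).trans ?_
    rw [← mul_sum, sum_add_distrib]
    have h1 := moment (a i) U t (ha i)
    have h2 := moment (a i) U (-t) (ha i)
    rw [neg_sq] at h2
    rw [htn] at h1 h2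
    have h3 : exp (-(4 * L)) * exp (2 * L) = θ ^ 2 := by
      rw [← exp_add, ← hexpL, ← exp_nat_mul]; congr 1; push_cast; ring
    calc _ ≤ exp (-(4 * L)) * (2 ^ n * exp (2 * L) + 2 ^ n * exp (2 * L)) :=
          mul_le_mul_of_nonneg_left (add_le_add h1 h2) (exp_pos _).le
      _ = 2 * 2 ^ n * (exp (-(4 * L)) * exp (2 * L)) := by ring
      _ = _ := by rw [h3]
  -- a popular profile
  set fib : (Fin m → ℤ) → Finset (Finset ι) := fun b => U.powerset.filter fun T => prof T = b
    with hfib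
  set B := U.powerset.image prof with hB
  obtain ⟨b, hbB, hbig⟩ : ∃ b ∈ B, (2 : ℝ) ^ n * exp (-((n : ℝ) / 20)) < (fib b).card := by
    by_contra hcon
    push Not at hcon
    have hsum : ∑ b ∈ B, ((fib b).card : ℝ) = 2 ^ n := by
      rw [← Nat.cast_sum, ← card_eq_sum_card_image, card_powerset]; simp [hn]
    have hsum2 : ∑ b ∈ B, ((fib b).card : ℝ) * ((∑ i, (b i).natAbs : ℕ) : ℝ)
        ≤ m * (2 * 2 ^ n * θ ^ 2) := by
      have : ∑ b ∈ B, ((fib b).card : ℝ) * ((∑ i, (b i).natAbs : ℕ) : ℝ)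
          = ∑ T ∈ U.powerset, ((∑ i, (prof T i).natAbs : ℕ) : ℝ) := by
        rw [← sum_fiberwise_of_maps_to (g := prof) (t := B) fun T hT => mem_image_of_mem _ hT]
        refine sum_congr rfl fun b _ => ?_
        rw [sum_congr rfl (g := fun _ => ((∑ i, (b i).natAbs : ℕ) : ℝ))
          fun T hT => by rw [(mem_filter.1 hT).2], sum_const, nsmul_eq_mul]
      rw [this]
      push_cast
      rw [sum_comm]
      refine (sum_le_sum fun i _ => hone i).trans (le_of_eq ?_)
      simp
    have hW := sum_profiles θ hθ0.le (by linarith) B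
    have key : ∀ b ∈ B, ((fib b).card : ℝ) * ((n : ℝ) / 20) ≤
        θ ^ (∑ i, (b i).natAbs) * 2 ^ n / exp (3 * θ * m) - (fib b).card
        + (fib b).card * (3 * θ * m + L * ((∑ i, (b i).natAbs : ℕ) : ℝ)) := by
      intro b hb
      obtain ⟨T, hT, rfl⟩ := mem_image.1 hb
      have hNn : 0 < (fib (prof T)).card := card_pos.2 ⟨T, by simp [hfib, mem_powerset.1 hT]⟩
      have hle := hcon _ hb
      set Nb : ℝ := ((fib (prof T)).card : ℝ) with hNb
      have hN0 : 0 < Nb := by rw [hNb]; exact_mod_cast hNn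
      set s := ∑ i, (prof T i).natAbs with hs
      have h1 : (n : ℝ) / 20 ≤ log (2 ^ n / Nb) := by
        rw [le_log_iff_exp_le (by positivity), le_div_iff₀ hN0]
        rw [exp_neg, ← div_eq_mul_inv, le_div_iff₀ (exp_pos _)] at hle
        linarith
      have h2 := log_le_sub_one_of_pos
        (show 0 < θ ^ s * 2 ^ n / exp (3 * θ * m) / Nb by positivity)
      rw [log_div (by positivity) hN0.ne', log_div (by positivity) (exp_pos _).ne', log_exp,
        log_mul (by positivity) (by positivity), log_pow θ s,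
        show log θ = -L by rw [← hexpL, log_exp]] at h2
      rw [log_div (by positivity) hN0.ne'] at h1
      have h3 : (n : ℝ) / 20 ≤ θ ^ s * 2 ^ n / exp (3 * θ * m) / Nb - 1
          + (3 * θ * m + L * s) := by linarith
      have h4 := mul_le_mul_of_nonneg_left h3 hN0.le
      have e : Nb * (θ ^ s * 2 ^ n / exp (3 * θ * m) / Nb - 1 + (3 * θ * m + L * s))
          = θ ^ s * 2 ^ n / exp (3 * θ * m) - Nb + Nb * (3 * θ * m + L * s) := by
        field_simp
      linarith
    have h := sum_le_sum key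
    rw [← sum_mul, hsum, sum_add_distrib, sum_sub_distrib, hsum, ← sum_div, ← sum_mul] at h
    simp only [mul_add, sum_add_distrib, ← sum_mul, hsum] at h
    have hW' : (∑ b ∈ B, θ ^ (∑ i, (b i).natAbs)) * 2 ^ n / exp (3 * θ * m) ≤ 2 ^ n := by
      rw [div_le_iff₀ (exp_pos _), mul_comm _ (exp _)]
      exact mul_le_mul_of_nonneg_right hW (by positivity)
    have hs2 : ∑ b ∈ B, ((fib b).card : ℝ) * (L * ((∑ i, (b i).natAbs : ℕ) : ℝ))
        ≤ L * (m * (2 * 2 ^ n * θ ^ 2)) := by
      simp only [mul_left_comm _ L, ← mul_sum]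
      exact mul_le_mul_of_nonneg_left hsum2 (by linarith)
    have hpow : (0 : ℝ) < 2 ^ n := by positivity
    have hLθ2 : L * θ ^ 2 ≤ θ := by
      calc L * θ ^ 2 ≤ θ⁻¹ * θ ^ 2 := mul_le_mul_of_nonneg_right hLθ (sq_nonneg _)
        _ = θ := by field_simp
    have hs3 := mul_le_mul_of_nonneg_left hLθ2 (show (0:ℝ) ≤ 2 * m * 2 ^ n by positivity)
    have hθm : θ * m = n / 200 := by rw [hθ]; field_simp
    nlinarith [mul_pos hpow hn']
  obtain ⟨T₀, hT₀, -⟩ := mem_image.1 hbB
  obtain ⟨T₀, hT₀⟩ : (fib b).Nonempty := by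
    rw [← card_pos]; exact_mod_cast (show (0:ℝ) < (fib b).card by
      linarith [show (0:ℝ) < 2 ^ n * exp (-((n : ℝ) / 20)) by positivity])
  obtain ⟨hT₀U, hT₀b⟩ := mem_filter.1 hT₀
  rw [mem_powerset] at hT₀U
  obtain ⟨T, hT, hfar⟩ : ∃ T ∈ fib b, n < 4 * (symmDiff T T₀).card := by
    by_contra hcon
    push Not at hcon
    have hsub : (fib b).card ≤ (U.powerset.filter fun A => 4 * A.card ≤ U.card).card := by
      refine card_le_card_of_injOn (fun T => symmDiff T T₀) (fun T hT => ?_) ?_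
      · have h1 := mem_powerset.1 (mem_filter.1 hT).1
        refine mem_coe.2 (mem_filter.2 ⟨mem_powerset.2 ?_, hcon T hT⟩)
        intro k hk; rcases mem_symmDiff.1 hk with ⟨h, -⟩ | ⟨h, -⟩
        · exact h1 h
        · exact hT₀U h
      · intro x _ y _ hxy; exact symmDiff_left_injective T₀ hxy
    have h2 := lt_of_lt_of_le hbig ((Nat.cast_le (α := ℝ)).2 hsub |>.trans (card_small_subsets U))
    have e : (2 : ℝ) ^ n = exp (n * log 2) := by rw [exp_nat_mul, exp_log two_pos]
    rw [e, ← exp_add, exp_lt_exp] at h2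
    have h43 : log (4 / 3 : ℝ) = 2 * log 2 - log 3 := by
      rw [log_div (by norm_num) (by norm_num), show (4 : ℝ) = 2 ^ 2 by norm_num, log_pow]; simp
    have h27 := one_sub_inv_le_log_of_pos (show (0 : ℝ) < 27 / 16 by norm_num)
    rw [log_div (by norm_num) (by norm_num), show (27 : ℝ) = 3 ^ 3 by norm_num,
      show (16 : ℝ) = 2 ^ 4 by norm_num, log_pow, log_pow] at h27
    norm_num at h27
    rw [h43] at h2
    nlinarith
  obtain ⟨hTU, hTb⟩ := mem_filter.1 hT
  rw [mem_powerset] at hTU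
  refine ⟨fun k => (sgn T k - sgn T₀ k) / 2, fun k => ?_, ?_, fun i => ?_⟩
  · simp only [sgn]; split_ifs <;> norm_num
  · refine hfar.le.trans (Nat.mul_le_mul_left 4 (card_le_card fun k hk => ?_))
    rcases mem_symmDiff.1 hk with ⟨h, h'⟩ | ⟨h, h'⟩
    · exact mem_filter.2 ⟨hTU h, by norm_num [sgn, h, h']⟩
    · exact mem_filter.2 ⟨hT₀U h, by norm_num [sgn, h, h']⟩
  · have e : ∑ k ∈ U, a i k * ((sgn T k - sgn T₀ k) / 2)
        = (rowSum (a i) U T - rowSum (a i) U T₀) / 2 := by
      simp only [rowSum, ← sum_sub_distrib, sum_div]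
      exact sum_congr rfl fun k _ => by ring
    have h1 := congrFun (hTb.trans hT₀b.symm) i
    simp only [hprof] at h1
    have h2 := abs_sub_round (rowSum (a i) U T / Δ)
    have h3 := abs_sub_round (rowSum (a i) U T₀ / Δ)
    rw [h1] at h2
    have h4 : |rowSum (a i) U T / Δ - rowSum (a i) U T₀ / Δ| ≤ 1 := by
      rw [abs_le] at *; constructor <;> linarith
    rw [← sub_div, abs_div, abs_of_pos hΔ0, div_le_one hΔ0] at h4
    rw [e, abs_div, abs_two, div_le_iff₀ two_pos]
    calc _ ≤ Δ := h4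
      _ = _ := by rw [hΔ]; ring

lemma mul_Lf_mono {m n n' : ℕ} (hn : 0 < n) (hn' : 0 < n') (hm : n ≤ m) (h : 4 * n' ≤ 3 * n) :
    (n' : ℝ) * Lf m n' ≤ 81 / 100 * (n * Lf m n) := by
  have hR : (0 : ℝ) < n := by exact_mod_cast hn
  have hR' : (0 : ℝ) < n' := by exact_mod_cast hn'
  have hmR : (n : ℝ) ≤ m := by exact_mod_cast hm
  have h' : (4 : ℝ) * n' ≤ 3 * n := by exact_mod_cast h
  have hm0 : (0 : ℝ) < m := hR.trans_le hmR
  have hu : (0:ℝ) < 3 * n / (4 * n') := by positivity
  have e : Lf m n' = Lf m n + log (4 / 3) + log (3 * n / (4 * n')) := by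
    rw [Lf, Lf, ← log_mul (by positivity) (by norm_num), ← log_mul (by positivity) hu.ne']
    congr 1; field_simp
  have hlu := mul_le_mul_of_nonneg_left (log_le_sub_one_of_pos hu) hR'.le
  have e2 : (n' : ℝ) * (3 * n / (4 * n') - 1) = 3 / 4 * n - n' := by field_simp
  have h43 := log_le_sub_one_of_pos (show (0 : ℝ) < 4 / 3 by norm_num)
  have h43' : 0 ≤ log (4 / 3 : ℝ) := log_nonneg (by norm_num)
  have hL5 : 5 ≤ Lf m n := by
    rw [Lf, le_log_iff_exp_le (by positivity)]
    refine le_trans ?_ (show (200 : ℝ) ≤ 200 * m / n by rw [le_div_iff₀ hR]; linarith)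
    rw [show (5 : ℝ) = (5 : ℕ) * 1 by norm_num, exp_nat_mul]
    refine (pow_le_pow_left₀ (exp_pos _).le exp_one_lt_d9.le 5).trans ?_
    norm_num
  have a1 := mul_nonneg (show (0:ℝ) ≤ 3 / 4 * n - n' by linarith)
    (show (0:ℝ) ≤ Lf m n + log (4 / 3) - 1 by linarith)
  have a2 := mul_le_mul_of_nonneg_left h43 hR.le
  have a3 := mul_le_mul_of_nonneg_left hL5 hR.le
  rw [e]
  nlinarith

/-- Full colouring. -/
theorem colour (m : ℕ) (a : Fin m → ι → ℝ) (ha : ∀ i k, |a i k| ≤ 1) :
    ∀ (n : ℕ) (U : Finset ι), U.card = n → n ≤ m →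
      ∃ χ : ι → ℝ, (∀ k, χ k = 1 ∨ χ k = -1) ∧
        ∀ i, |∑ k ∈ U, a i k * χ k| ≤ 20 * √(n * Lf m n) := by
  intro n
  induction n using Nat.strong_induction_on with
  | _ n ih =>
    intro U hU hm
    rcases Nat.eq_zero_or_pos n with h0 | hn
    · subst h0
      rw [Finset.card_eq_zero] at hU
      exact ⟨fun _ => 1, fun _ => Or.inl rfl, fun i => by simp [hU]⟩
    obtain ⟨p, hp, hcard, hbd⟩ := partial_colour U m a ha (hU ▸ hn) (hU ▸ hm)
    set U' := U.filter (fun k => p k = 0) with hU'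
    have hsplit := card_filter_add_card_filter_not (s := U) (fun k => p k = 0)
    have h4 : 4 * U'.card ≤ 3 * n := by
      rw [← hU'] at hsplit
      simp only [ne_eq] at hcard
      omega
    obtain ⟨χ, hχ, hχb⟩ := ih U'.card (by omega) U' rfl (by omega)
    refine ⟨fun k => if p k = 0 then χ k else p k, fun k => ?_, fun i => ?_⟩
    · by_cases h : p k = 0
      · simpa [h] using hχ k
      · simpa [h] using (hp k).resolve_left h
    · have e : ∑ k ∈ U, a i k * (if p k = 0 then χ k else p k)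
          = ∑ k ∈ U', a i k * χ k + ∑ k ∈ U, a i k * p k := by
        rw [hU', sum_filter, ← sum_add_distrib]
        refine sum_congr rfl fun k _ => ?_
        split_ifs with h <;> simp [h]
      rw [e]
      refine (abs_add_le _ _).trans ?_
      have h2 := hbd i
      rw [hU] at h2
      have h3 : √((U'.card : ℝ) * Lf m U'.card) ≤ 9 / 10 * √(n * Lf m n) := by
        rcases Nat.eq_zero_or_pos U'.card with h | h
        · rw [h]; simp only [Nat.cast_zero, zero_mul, sqrt_zero]; positivity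
        · rw [show (9 / 10 : ℝ) = √(81 / 100) by
              rw [show (81 / 100 : ℝ) = (9 / 10) ^ 2 by norm_num, sqrt_sq (by norm_num)],
            ← sqrt_mul (by norm_num)]
          exact sqrt_le_sqrt (mul_Lf_mono hn h hm h4)
      linarith [hχb i]

end Vale.Agent.P110.UF.Round
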