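import Vale.Agent.P110.UF.Defs

/-!
# P110: a polynomial of length `N` is controlled by its values at the `3N`-th roots of unity
-/

open Finset
open scoped ComplexConjugate

namespace Vale.Agent.P110.UF.Round

/-- The geometric sum. -/
noncomputable def geo (a : ℕ) (u : ℂ) : ℂ := ∑ i ∈ range a, u ^ i

/-- The root of unity of order `q`. -/
noncomputable def zeta (q : ℕ) : ℂ := Complex.exp (2 * Real.pi * Complex.I / q)

lemma zeta_prim {q : ℕ} (hq : q ≠ 0) : IsPrimitiveRoot (zeta q) q := Complex.isPrimitiveRoot_exp q hq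

lemma norm_zeta {q : ℕ} (hq : q ≠ 0) : ‖zeta q‖ = 1 :=
  Complex.norm_eq_one_of_pow_eq_one (zeta_prim hq).pow_eq_one hq

lemma sum_char {q a b : ℕ} (hq : q ≠ 0) (ha : a < q) (hb : b < q) :
    ∑ j ∈ range q, (zeta q ^ a * ((zeta q)⁻¹) ^ b) ^ j = if a = b then (q : ℂ) else 0 := by
  have hp := zeta_prim hq
  have h0 : zeta q ≠ 0 := hp.ne_zero hq
  split_ifs with h
  · subst h
    simp [← mul_pow, h0]
  · have hne : zeta q ^ a * ((zeta q)⁻¹) ^ b ≠ 1 := by
      intro e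
      rw [inv_pow, mul_inv_eq_one₀ (pow_ne_zero _ h0)] at e
      exact h (hp.pow_inj ha hb e)
    have h1 : (zeta q ^ a * ((zeta q)⁻¹) ^ b) ^ q = 1 := by
      rw [mul_pow, ← pow_mul, ← pow_mul, mul_comm a q, mul_comm b q, pow_mul, pow_mul, inv_pow,
        hp.pow_eq_one]
      simp
    have := geom_sum_mul (zeta q ^ a * ((zeta q)⁻¹) ^ b) q
    rw [h1, sub_self] at this
    exact (mul_eq_zero.1 this).resolve_right (sub_ne_zero.2 hne)

/-- The points `z ω^(-j)`. -/
noncomputable def pt (q : ℕ) (z : ℂ) (j : ℕ) : ℂ := z * ((zeta q)⁻¹) ^ j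

lemma norm_pt {q : ℕ} (hq : q ≠ 0) {z : ℂ} (hz : ‖z‖ = 1) (j : ℕ) : ‖pt q z j‖ = 1 := by
  simp [pt, hz, norm_zeta hq]

lemma sum_norm_geo {q a : ℕ} (hq : q ≠ 0) (ha : a ≤ q) {z : ℂ} (hz : ‖z‖ = 1) :
    ∑ j ∈ range q, ‖geo a (pt q z j)‖ ^ 2 = (q : ℝ) * a := by
  have h : ((∑ j ∈ range q, ‖geo a (pt q z j)‖ ^ 2 : ℝ) : ℂ) = ((q : ℝ) * a : ℝ) := by
    push_cast
    simp only [← Complex.conj_mul', geo, map_sum, map_pow, Finset.sum_mul, Finset.mul_sum]
    have e : ∀ j i l : ℕ, (conj (pt q z j)) ^ i * (pt q z j) ^ l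
        = (conj z) ^ i * z ^ l * ((zeta q ^ i * ((zeta q)⁻¹) ^ l) ^ j) := by
      intro j i l
      have hc : conj ((zeta q)⁻¹) = zeta q := by
        rw [map_inv₀, Complex.inv_eq_conj (by simp [norm_zeta hq]), Complex.conj_conj]
      simp only [pt, map_mul, map_pow, hc, mul_pow, ← pow_mul]
      ring
    simp only [e]
    rw [Finset.sum_comm]
    rw [Finset.sum_congr rfl fun i _ => Finset.sum_comm]
    simp only [← Finset.mul_sum]
    rw [Finset.sum_comm]
    have hzz : ∀ i : ℕ, conj z ^ i * z ^ i = 1 := fun i => by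
      rw [← mul_pow, Complex.conj_mul', hz]; simp
    calc ∑ i ∈ range a, ∑ l ∈ range a, conj z ^ i * z ^ l *
          ∑ j ∈ range q, (zeta q ^ i * ((zeta q)⁻¹) ^ l) ^ j
        = ∑ i ∈ range a, (q : ℂ) := by
          refine Finset.sum_congr rfl fun i hi => ?_
          have hi' : i < q := lt_of_lt_of_le (mem_range.1 hi) ha
          rw [Finset.sum_eq_single i]
          · rw [sum_char hq hi' hi', if_pos rfl, hzz, one_mul]
          · intro l hl hne
            rw [sum_char hq hi' (lt_of_lt_of_le (mem_range.1 hl) ha), if_neg (Ne.symm hne), mul_zero]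
          · intro h; exact absurd hi h
      _ = _ := by simp; ring
  exact_mod_cast h

/-- Interpolation from the `3N`-th roots of unity. -/
lemma poly_interp {N : ℕ} (hN : 0 < N) (y : Fin N → ℝ) (z : ℂ) :
    (3 * N * N : ℕ) * (z ^ (N - 1) * poly y z) =
      ∑ j ∈ range (3 * N), poly y (zeta (3 * N) ^ j) * (zeta (3 * N) ^ j) ^ (N - 1)
        * geo N (pt (3 * N) z j) * geo (2 * N - 1) (pt (3 * N) z j) := by
  have hq : 3 * N ≠ 0 := by omega
  simp only [poly, geo, Finset.sum_mul, Finset.mul_sum, pt, mul_pow, ← pow_mul]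
  symm
  rw [Finset.sum_comm]
  rw [Finset.sum_congr rfl fun l _ => Finset.sum_comm]
  rw [Finset.sum_congr rfl fun l _ => Finset.sum_congr rfl fun i _ => Finset.sum_comm]
  have key : ∀ l ∈ range (2 * N - 1), ∀ i ∈ range N, ∀ k : Fin N,
      ∑ j ∈ range (3 * N), (y k : ℂ) * zeta (3 * N) ^ (j * (k : ℕ)) * zeta (3 * N) ^ (j * (N - 1))
          * (z ^ i * (zeta (3 * N))⁻¹ ^ (j * i)) * (z ^ l * (zeta (3 * N))⁻¹ ^ (j * l))
        = if (k : ℕ) + (N - 1) = i + l then (3 * N : ℕ) * ((y k : ℂ) * z ^ (i + l)) else 0 := by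
    intro l hl i hi k
    have hl := mem_range.1 hl
    have hi := mem_range.1 hi
    have hk := k.isLt
    have e : ∀ j : ℕ, (y k : ℂ) * zeta (3 * N) ^ (j * (k : ℕ)) * zeta (3 * N) ^ (j * (N - 1))
          * (z ^ i * (zeta (3 * N))⁻¹ ^ (j * i)) * (z ^ l * (zeta (3 * N))⁻¹ ^ (j * l))
        = ((y k : ℂ) * z ^ (i + l)) *
          (zeta (3 * N) ^ ((k : ℕ) + (N - 1)) * ((zeta (3 * N))⁻¹) ^ (i + l)) ^ j := fun j => by
      simp only [pow_add, mul_pow, ← pow_mul, mul_comm _ j]; ring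
    simp only [e, ← Finset.mul_sum]
    rw [sum_char hq (by omega) (by omega)]
    split_ifs <;> ring
  rw [Finset.sum_congr rfl fun l hl => Finset.sum_congr rfl fun i hi =>
    Finset.sum_congr rfl fun k _ => key l hl i hi k]
  rw [Finset.sum_congr rfl fun l _ => Finset.sum_comm]
  rw [Finset.sum_comm]
  refine Finset.sum_congr rfl fun k _ => ?_
  rw [Finset.sum_comm]
  calc ∑ i ∈ range N, ∑ l ∈ range (2 * N - 1),
        (if (k : ℕ) + (N - 1) = i + l then (3 * N : ℕ) * ((y k : ℂ) * z ^ (i + l)) else 0)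
      = ∑ i ∈ range N, (3 * N : ℕ) * ((y k : ℂ) * z ^ ((k : ℕ) + (N - 1))) := by
        refine Finset.sum_congr rfl fun i hi => ?_
        have hi := mem_range.1 hi
        have hk := k.isLt
        rw [Finset.sum_eq_single ((k : ℕ) + (N - 1) - i)]
        · rw [if_pos (by omega), show i + ((k : ℕ) + (N - 1) - i) = (k : ℕ) + (N - 1) by omega]
        · intro l _ hl; rw [if_neg (by omega)]
        · intro h; exact absurd (mem_range.2 (by omega)) h
    _ = _ := by simp [pow_add]; ring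

/-- The supremum is at most `3/2` times the supremum on the grid. -/
lemma norm_poly_le {N : ℕ} (hN : 0 < N) (y : Fin N → ℝ) {M : ℝ}
    (h : ∀ j, ‖poly y (zeta (3 * N) ^ j)‖ ≤ M) {z : ℂ} (hz : ‖z‖ = 1) :
    ‖poly y z‖ ≤ 3 / 2 * M := by
  have hq : 3 * N ≠ 0 := by omega
  have hM : 0 ≤ M := (norm_nonneg _).trans (h 0)
  have e := congrArg norm (poly_interp hN y z)
  rw [norm_mul, norm_mul, norm_pow, hz, one_pow, one_mul, Complex.norm_natCast] at e
  have h1 : ((3 * N * N : ℕ) : ℝ) * ‖poly y z‖ ≤ ∑ j ∈ range (3 * N),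
      M * (3 / 4 * ‖geo N (pt (3 * N) z j)‖ ^ 2
        + 1 / 3 * ‖geo (2 * N - 1) (pt (3 * N) z j)‖ ^ 2) := by
    rw [e]
    refine (norm_sum_le _ _).trans (Finset.sum_le_sum fun j _ => ?_)
    simp only [norm_mul, norm_pow, norm_zeta hq, one_pow, mul_one]
    rw [mul_assoc]
    refine mul_le_mul (h j) ?_ (by positivity) hM
    nlinarith [sq_nonneg (3 * ‖geo N (pt (3 * N) z j)‖ - 2 * ‖geo (2 * N - 1) (pt (3 * N) z j)‖)]
  rw [← Finset.mul_sum, Finset.sum_add_distrib, ← Finset.mul_sum, ← Finset.mul_sum,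
    sum_norm_geo hq (by omega) hz, sum_norm_geo hq (by omega) hz] at h1
  have hb : ((2 * N - 1 : ℕ) : ℝ) ≤ 2 * N := by
    exact_mod_cast (show 2 * N - 1 ≤ 2 * N by omega)
  push_cast at h1
  have hN' : (0 : ℝ) < N := by exact_mod_cast hN
  have hb2 := mul_le_mul_of_nonneg_left hb (mul_nonneg hM hN'.le)
  refine le_of_mul_le_mul_left ?_ (by positivity : (0 : ℝ) < 3 * N * N)
  nlinarith [mul_nonneg hM (mul_nonneg hN'.le hN'.le)]

end Vale.Agent.P110.UF.Round
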