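import Vale.Agent.P110.UF.Round.Grid
import Vale.Agent.P110.UF.Round.Colour

/-!
# P110: bitwise rounding (`RoundStmt`)

The deficit `e k = (1 - |y k|) / 2` is rounded bit by bit to `0` or `1`, each bit by a colouring
whose sign is chosen so that the total deficit does not grow.
-/

open Finset Real

namespace Vale.Agent.P110.UF.Round

lemma colour_size (N n : ℕ) (hn : n ≤ N) :
    20 * √((n : ℝ) * Lf (6 * N) n) ≤ 180 * √(√((N : ℝ) * n)) := by
  rcases Nat.eq_zero_or_pos n with rfl | hn0
  · simp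
  have hn' : (0 : ℝ) < n := by exact_mod_cast hn0
  have hN : (0 : ℝ) < N := by exact_mod_cast hn0.trans_le hn
  have hx : (0 : ℝ) ≤ 200 * (6 * N : ℕ) / n := by positivity
  have h1 : Lf (6 * N) n ≤ 2 * √(200 * (6 * N : ℕ) / n) := by
    have := log_le_rpow_div hx (show (0 : ℝ) < 1 / 2 by norm_num)
    rw [← sqrt_eq_rpow] at this
    rw [Lf]; linarith
  have h2 : (n : ℝ) * Lf (6 * N) n ≤ 81 * √((N : ℝ) * n) := by
    refine (mul_le_mul_of_nonneg_left h1 hn'.le).trans ?_
    have e : (n : ℝ) * (2 * √(200 * (6 * N : ℕ) / n)) = 2 * √(1200 * (N * n)) := by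
      rw [mul_left_comm]; congr 1
      rw [← sqrt_sq hn'.le, ← sqrt_mul (sq_nonneg _), sqrt_sq hn'.le]
      congr 1; push_cast; field_simp; ring
    rw [e, sqrt_mul (by norm_num)]
    have : √(1200 : ℝ) ≤ 40 := by rw [sqrt_le_left (by norm_num)]; norm_num
    have := mul_le_mul_of_nonneg_right this (sqrt_nonneg ((N : ℝ) * n))
    linarith [sqrt_nonneg ((N : ℝ) * n)]
  calc 20 * √((n : ℝ) * Lf (6 * N) n) ≤ 20 * √(81 * √((N : ℝ) * n)) := by gcongr
    _ = _ := by
        rw [sqrt_mul (by norm_num), show (81 : ℝ) = 9 ^ 2 by norm_num, sqrt_sq (by norm_num)]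
        ring

/-- The descent over the binary digits. -/
theorem descend (N : ℕ) (a : Fin (6 * N) → Fin N → ℝ) (ha : ∀ i k, |a i k| ≤ 1) (B : ℝ)
    (hB : 0 ≤ B) :
    ∀ (l : ℕ) (D : Fin N → ℕ), (∀ k, D k ≤ 2 ^ l) → (∑ k, (D k : ℝ)) ≤ 2 ^ l * B →
      ∃ E : Fin N → ℕ, (∀ k, E k ≤ 1) ∧ ∀ i,
        |∑ k, a i k * ((D k : ℝ) / 2 ^ l - E k)|
          ≤ 4 * (180 * √(√(N * B))) * (1 - (3 / 4) ^ l) := by
  classical
  intro l
  induction l with
  | zero =>
    intro D hD _
    exact ⟨D, fun k => by simpa using hD k, fun i => by simp⟩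
  | succ l ih =>
    intro D hD hsum
    set W := 180 * √(√(N * B)) with hW
    set U : Finset (Fin N) := univ.filter fun k => D k % 2 = 1 with hU
    have hUN : U.card ≤ N := (card_le_univ U).trans_eq (Fintype.card_fin N)
    have hUB : (U.card : ℝ) ≤ 2 ^ (l + 1) * B := by
      refine le_trans ?_ hsum
      rw [cast_card]
      refine (sum_le_sum fun k hk => ?_).trans
        (sum_le_sum_of_subset_of_nonneg (subset_univ _) fun _ _ _ => by positivity)
      have := (mem_filter.1 hk).2
      exact_mod_cast (show 1 ≤ D k by omega)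
    obtain ⟨χ₀, hχ₀, hχb₀⟩ := colour (6 * N) a ha U.card U rfl (by omega)
    -- the sign for which the total does not grow
    obtain ⟨χ, hχ, hχsum, hχb⟩ : ∃ χ : Fin N → ℝ, (∀ k, χ k = 1 ∨ χ k = -1) ∧
        ∑ k ∈ U, χ k ≤ 0 ∧ ∀ i, |∑ k ∈ U, a i k * χ k| ≤ 20 * √(U.card * Lf (6 * N) U.card) := by
      rcases le_total (∑ k ∈ U, χ₀ k) 0 with h | h
      · exact ⟨χ₀, hχ₀, h, hχb₀⟩
      · refine ⟨fun k => -χ₀ k, fun k => ?_, ?_, fun i => ?_⟩
        · rcases hχ₀ k with h | h <;> simp [h]
        · simpa [sum_neg_distrib] using h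
        · simpa [sum_neg_distrib, abs_neg] using hχb₀ i
    set D' : Fin N → ℕ := fun k =>
      if D k % 2 = 1 then (if χ k = 1 then (D k + 1) / 2 else (D k - 1) / 2) else D k / 2 with hD'
    have hval : ∀ k, 2 * (D' k : ℝ) = D k + if k ∈ U then χ k else 0 := by
      intro k
      simp only [hD', hU, mem_filter, mem_univ, true_and]
      by_cases h : D k % 2 = 1
      · simp only [h, if_true]
        rcases hχ k with h1 | h1
        · have e : 2 * ((D k + 1) / 2) = D k + 1 := by omega
          rw [if_pos h1, h1]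
          exact_mod_cast e
        · have e : 2 * ((D k - 1) / 2) + 1 = D k := by omega
          have e' : 2 * (((D k - 1) / 2 : ℕ) : ℝ) + 1 = (D k : ℝ) := by exact_mod_cast e
          rw [if_neg (by rw [h1]; norm_num), h1]
          linarith
      · have e : 2 * (D k / 2) = D k := by omega
        simp only [h, if_false, add_zero]
        exact_mod_cast e
    have hbound : ∀ k, D' k ≤ 2 ^ l := by
      intro k
      have hk := hD k
      rw [pow_succ] at hk
      simp only [hD']
      split_ifs <;> omega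
    have hsum' : ∑ k, (D' k : ℝ) ≤ 2 ^ l * B := by
      have : 2 * ∑ k, (D' k : ℝ) = ∑ k, (D k : ℝ) + ∑ k ∈ U, χ k := by
        rw [mul_sum, sum_congr rfl fun k _ => hval k, sum_add_distrib, sum_ite_mem, univ_inter]
      rw [pow_succ] at hsum
      linarith
    obtain ⟨E, hE, hEb⟩ := ih D' hbound hsum'
    refine ⟨E, hE, fun i => ?_⟩
    have e : ∑ k, a i k * ((D k : ℝ) / 2 ^ (l + 1) - E k)
        = ∑ k, a i k * ((D' k : ℝ) / 2 ^ l - E k) - (∑ k ∈ U, a i k * χ k) / 2 ^ (l + 1) := by
      have e1 : ∑ k ∈ U, a i k * χ k = ∑ k, a i k * (if k ∈ U then χ k else 0) := by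
        simp [mul_ite, sum_ite_mem]
      rw [e1, sum_div, ← sum_sub_distrib]
      refine sum_congr rfl fun k _ => ?_
      rw [show (D k : ℝ) = 2 * (D' k : ℝ) - (if k ∈ U then χ k else 0) by linarith [hval k],
        pow_succ]
      field_simp
      ring
    rw [e]
    refine (abs_sub _ _).trans ?_
    have h1 : |(∑ k ∈ U, a i k * χ k) / 2 ^ (l + 1)| ≤ W * (3 / 4) ^ (l + 1) := by
      rw [abs_div, abs_of_pos (by positivity : (0 : ℝ) < 2 ^ (l + 1)), div_le_iff₀ (by positivity)]
      refine (hχb i).trans ((colour_size N _ hUN).trans ?_)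
      have hx : √(√((N : ℝ) * U.card)) ≤ √(√((N : ℝ) * B)) * (3 / 2) ^ (l + 1) := by
        have h3 : ((2 : ℝ)) ^ (l + 1) ≤ (((3 / 2 : ℝ) ^ (l + 1)) ^ 2) ^ 2 := by
          rw [← pow_mul, ← pow_mul, show (l + 1) * (2 * 2) = 4 * (l + 1) by ring, pow_mul]
          exact pow_le_pow_left₀ (by norm_num) (by norm_num) _
        have h4 : (N : ℝ) * U.card ≤ (N * B) * (((3 / 2 : ℝ) ^ (l + 1)) ^ 2) ^ 2 := by
          calc (N : ℝ) * U.card ≤ N * (2 ^ (l + 1) * B) := by gcongr
            _ = N * B * 2 ^ (l + 1) := by ring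
            _ ≤ _ := by gcongr
        calc √(√((N : ℝ) * U.card)) ≤ √(√((N * B) * (((3 / 2 : ℝ) ^ (l + 1)) ^ 2) ^ 2)) := by
              gcongr
          _ = _ := by
              rw [sqrt_mul (by positivity), sqrt_sq (by positivity), sqrt_mul (sqrt_nonneg _),
                sqrt_sq (by positivity)]
      refine (mul_le_mul_of_nonneg_left hx (by norm_num)).trans (le_of_eq ?_)
      rw [hW, mul_assoc _ ((3 / 4 : ℝ) ^ (l + 1)), ← mul_pow]
      norm_num
      ring
    have h2 := hEb i
    have hW0 : 0 ≤ W := by positivity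
    have hp : (0 : ℝ) ≤ W * (3 / 4) ^ (l + 1) := by positivity
    have hp' : (0 : ℝ) ≤ W * (3 / 4) ^ l := by positivity
    simp only [pow_succ] at h1 ⊢
    linarith

/-- Rounding. -/
theorem round_stmt : RoundStmt := by
  intro ε hε
  set η : ℝ := (ε / 8640) ^ 4 with hη
  refine ⟨η, by positivity, ⌈(12 / ε) ^ 2⌉₊ + 1, fun N hN y hy hsum => ?_⟩
  have hN0 : 0 < N := by omega
  have hsN : 12 / ε ≤ √(N : ℝ) := by
    rw [le_sqrt (by positivity) (by positivity)]
    exact (Nat.le_ceil _).trans (by exact_mod_cast (show ⌈(12 / ε) ^ 2⌉₊ ≤ N by omega))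
  set s : Fin N → ℝ := fun k => if 0 ≤ y k then 1 else -1 with hs
  have hs1 : ∀ k, |s k| = 1 := fun k => by simp only [hs]; split_ifs <;> simp
  have hys : ∀ k, y k = s k * |y k| := fun k => by
    simp only [hs]; split_ifs with h
    · rw [abs_of_nonneg h, one_mul]
    · rw [abs_of_neg (not_le.1 h)]; ring
  set e : Fin N → ℝ := fun k => (1 - |y k|) / 2 with he
  have he0 : ∀ k, 0 ≤ e k := fun k => by simp only [he]; linarith [hy k]
  set D : Fin N → ℕ := fun k => ⌊2 ^ N * e k⌋₊ with hD
  have hDle : ∀ k, D k ≤ 2 ^ N := fun k => by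
    refine Nat.floor_le_of_le ?_
    push_cast
    exact mul_le_of_le_one_right (by positivity) (by simp only [he]; linarith [abs_nonneg (y k)])
  have hDsum : ∑ k, (D k : ℝ) ≤ 2 ^ N * (η * N) := by
    refine (sum_le_sum fun k _ => Nat.floor_le (mul_nonneg (by positivity) (he0 k))).trans ?_
    rw [← mul_sum]
    refine mul_le_mul_of_nonneg_left ?_ (by positivity)
    simp only [he, ← sum_div]
    linarith [show 0 ≤ η * N by positivity]
  set w : ℕ → Fin N → ℂ := fun j k => (zeta (3 * N) ^ j) ^ (k : ℕ) with hw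
  set a : Fin (6 * N) → Fin N → ℝ := fun i k =>
    s k * if (i : ℕ) < 3 * N then (w i k).re else (w (i - 3 * N) k).im with ha
  have hw1 : ∀ j k, ‖w j k‖ = 1 := fun j k => by
    simp [hw, norm_zeta (show 3 * N ≠ 0 by omega)]
  have ha1 : ∀ i k, |a i k| ≤ 1 := fun i k => by
    simp only [ha, abs_mul, hs1, one_mul]
    split_ifs
    · exact (Complex.abs_re_le_norm _).trans (hw1 _ _).le
    · exact (Complex.abs_im_le_norm _).trans (hw1 _ _).le
  obtain ⟨E, hE, hEb⟩ := descend N a ha1 (η * N) (by positivity) N D hDle hDsum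
  set W : ℝ := √(√((N : ℝ) * (η * N))) with hWdef
  have hW : W = √(N : ℝ) * (ε / 8640) := by
    have hs2 : (N : ℝ) = √(N : ℝ) ^ 2 := (sq_sqrt (by positivity)).symm
    rw [hWdef, show (N : ℝ) * (η * N) = ((√(N : ℝ) * (ε / 8640)) ^ 2) ^ 2 by
      rw [hη]; conv_lhs => rw [hs2]
      ring, sqrt_sq (by positivity), sqrt_sq (by positivity)]
  refine ⟨fun k => s k * (1 - 2 * (E k : ℝ)), fun k => ?_, fun z hz => ?_⟩
  · rcases Nat.le_one_iff_eq_zero_or_eq_one.1 (hE k) with h | h <;>
      by_cases h2 : 0 ≤ y k <;> simp [hs, h, h2] <;> norm_num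
  · have hval : ∀ k, s k * (1 - 2 * (E k : ℝ)) - y k = 2 * (s k * (e k - E k)) := fun k => by
      conv_lhs => rw [hys k]
      simp only [he]; ring
    have hdiff : poly (fun k => s k * (1 - 2 * (E k : ℝ))) z - poly y z
        = poly (fun k => 2 * (s k * (e k - E k))) z := by
      simp only [poly, ← sum_sub_distrib, ← sub_mul, ← Complex.ofReal_sub, hval]
    rw [hdiff]
    have hpow : (N : ℝ) ≤ 2 ^ N := by exact_mod_cast (Nat.lt_two_pow_self).le
    -- one grid row
    have hrow : ∀ i : Fin (6 * N), |∑ k, a i k * (e k - E k)| ≤ 720 * W + 1 := by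
      intro i
      have h1 : |∑ k, a i k * (e k - (D k : ℝ) / 2 ^ N)| ≤ 1 := by
        refine (abs_sum_le_sum_abs _ _).trans ?_
        refine (sum_le_sum (g := fun _ => (1 : ℝ) / 2 ^ N) fun k _ => ?_).trans ?_
        · rw [abs_mul]
          refine le_trans (mul_le_of_le_one_left (abs_nonneg _) (ha1 i k)) ?_
          have h2 := Nat.floor_le (mul_nonneg (pow_nonneg two_pos.le N) (he0 k))
          have h3 := Nat.lt_floor_add_one (2 ^ N * e k)
          have hp : (0 : ℝ) < 2 ^ N := by positivity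
          rw [show e k - (D k : ℝ) / 2 ^ N = (2 ^ N * e k - D k) / 2 ^ N by field_simp, abs_div,
            abs_of_pos hp]
          gcongr
          simp only [hD, abs_le]
          constructor <;> linarith
        · simp only [sum_const, card_univ, Fintype.card_fin, nsmul_eq_mul]
          rw [mul_one_div, div_le_one (by positivity)]
          exact hpow
      have h2 : |∑ k, a i k * ((D k : ℝ) / 2 ^ N - E k)| ≤ 720 * W := by
        refine (hEb i).trans ?_
        calc 4 * (180 * W) * (1 - (3 / 4 : ℝ) ^ N) ≤ 4 * (180 * W) * 1 := by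
              refine mul_le_mul_of_nonneg_left ?_ (by positivity)
              linarith [show (0 : ℝ) ≤ (3 / 4 : ℝ) ^ N by positivity]
          _ = _ := by ring
      rw [show ∑ k, a i k * (e k - E k) = ∑ k, a i k * (e k - (D k : ℝ) / 2 ^ N)
        + ∑ k, a i k * ((D k : ℝ) / 2 ^ N - E k) by
          rw [← sum_add_distrib]; exact sum_congr rfl fun k _ => by ring]
      exact (abs_add_le _ _).trans (by linarith)
    refine (norm_poly_le hN0 _ (M := 4 * (720 * W + 1)) (fun j => ?_) hz).trans ?_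
    · have hj : zeta (3 * N) ^ j = zeta (3 * N) ^ (j % (3 * N)) :=
        pow_eq_pow_mod j (zeta_prim (show 3 * N ≠ 0 by omega)).pow_eq_one
      rw [hj]
      set j' := j % (3 * N)
      have hj' : j' < 3 * N := Nat.mod_lt _ (by omega)
      refine (Complex.norm_le_abs_re_add_abs_im _).trans ?_
      have r1 := hrow ⟨j', by omega⟩
      have r2 := hrow ⟨j' + 3 * N, by omega⟩
      simp only [ha, if_pos hj', if_neg (show ¬ j' + 3 * N < 3 * N by omega),
        Nat.add_sub_cancel] at r1 r2
      have er : (poly (fun k => 2 * (s k * (e k - E k))) (zeta (3 * N) ^ j')).re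
          = 2 * ∑ k, s k * (w j' k).re * (e k - E k) := by
        simp only [poly, Complex.re_sum, Complex.re_ofReal_mul, mul_sum, hw]
        exact sum_congr rfl fun k _ => by ring
      have ei : (poly (fun k => 2 * (s k * (e k - E k))) (zeta (3 * N) ^ j')).im
          = 2 * ∑ k, s k * (w j' k).im * (e k - E k) := by
        simp only [poly, Complex.im_sum, Complex.im_ofReal_mul, mul_sum, hw]
        exact sum_congr rfl fun k _ => by ring
      rw [er, ei, abs_mul, abs_mul, abs_two]
      linarith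
    · have h12 : 12 ≤ ε * √(N : ℝ) := by
        rw [div_le_iff₀ hε] at hsN; linarith
      rw [hW]
      linarith

end Vale.Agent.P110.UF.Round

namespace Vale.Agent.P110.UF

theorem round_stmt : RoundStmt := Round.round_stmt

end Vale.Agent.P110.UF
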